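import Vale.Agent.P038.Defs
import Mathlib

/-!
# Seymour's second neighbourhood conjecture: closed neighbourhoods, the cost function and (G)
-/

namespace Vale.Agent.P038.H294

open Finset

variable {V : Type*} [Fintype V]

/-- `z` is in the closed out-neighbourhood of `s`. -/
def Le (D : OGraph V) (s z : V) : Prop := s = z ∨ D.arc s z

open Classical in
/-- The closed out-neighbourhood of a set. -/
noncomputable def cn (D : OGraph V) (S : Finset V) : Finset V :=
  Finset.univ.filter fun z => ∃ s ∈ S, Le D s z

theorem mem_cn {D : OGraph V} {S : Finset V} {z : V} : z ∈ cn D S ↔ ∃ s ∈ S, Le D s z := by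
  classical
  simp [cn]

theorem subset_cn {D : OGraph V} (S : Finset V) : S ⊆ cn D S := fun z hz =>
  mem_cn.2 ⟨z, hz, Or.inl rfl⟩

theorem cn_mono {D : OGraph V} {S T : Finset V} (h : S ⊆ T) : cn D S ⊆ cn D T := fun z hz => by
  obtain ⟨s, hs, h1⟩ := mem_cn.1 hz
  exact mem_cn.2 ⟨s, h hs, h1⟩

theorem cn_union [DecidableEq V] {D : OGraph V} (S T : Finset V) :
    cn D (S ∪ T) = cn D S ∪ cn D T := by
  ext z
  simp only [mem_union, mem_cn]
  constructor
  · rintro ⟨s, hs | hs, h⟩
    · exact Or.inl ⟨s, hs, h⟩
    · exact Or.inr ⟨s, hs, h⟩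
  · rintro (⟨s, hs, h⟩ | ⟨s, hs, h⟩)
    · exact ⟨s, Or.inl hs, h⟩
    · exact ⟨s, Or.inr hs, h⟩

/-- The cost `c(S) = |N[S]| - |S|`. -/
noncomputable def c (D : OGraph V) (S : Finset V) : ℤ := ((cn D S).card : ℤ) - (S.card : ℤ)

theorem c_submod [DecidableEq V] (D : OGraph V) (S T : Finset V) :
    c D (S ∪ T) + c D (S ∩ T) ≤ c D S + c D T := by
  have h1 := Finset.card_union_add_card_inter S T
  have h2 := Finset.card_union_add_card_inter (cn D S) (cn D T)
  have h3 : (cn D (S ∩ T)).card ≤ (cn D S ∩ cn D T).card :=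
    Finset.card_le_card (Finset.subset_inter (cn_mono Finset.inter_subset_left)
      (cn_mono Finset.inter_subset_right))
  unfold c
  rw [cn_union]
  omega

theorem c_eq [DecidableEq V] (D : OGraph V) (S : Finset V) :
    c D S = ((cn D S \ S).card : ℤ) := by
  have := Finset.card_sdiff_add_card_eq_card (subset_cn (D := D) S)
  unfold c
  omega

theorem N1_card [DecidableEq V] (D : OGraph V) (v : V) : ((N1 D v).card : ℤ) = c D {v} := by
  rw [c_eq]
  congr 2
  ext z
  simp only [mem_sdiff, mem_cn, mem_singleton, mem_N1, Le]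
  constructor
  · intro h
    refine ⟨⟨v, rfl, Or.inr h⟩, ?_⟩
    rintro rfl
    exact D.loopless _ h
  · rintro ⟨⟨s, rfl, h | h⟩, h2⟩
    · exact absurd h.symm h2
    · exact h

theorem N2_card [DecidableEq V] (D : OGraph V) (v : V) :
    ((N2 D v).card : ℤ) = c D (cn D {v}) := by
  rw [c_eq]
  congr 2
  ext z
  simp only [mem_sdiff, mem_cn, mem_singleton, mem_N2, Le]
  constructor
  · rintro ⟨h1, h2, u, h3, h4⟩
    refine ⟨⟨u, ⟨v, rfl, Or.inr h3⟩, Or.inr h4⟩, ?_⟩
    rintro ⟨s, rfl, h | h⟩
    · exact h1 h.symm
    · exact h2 h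
  · rintro ⟨⟨u, ⟨s, rfl, h⟩, h'⟩, h2⟩
    have h3 : z ≠ s := fun e => h2 ⟨s, rfl, Or.inl e.symm⟩
    have h4 : ¬ D.arc s z := fun e => h2 ⟨s, rfl, Or.inr e⟩
    refine ⟨h3, h4, u, ?_, ?_⟩
    · rcases h with h | h
      · subst h
        rcases h' with h' | h'
        · exact absurd h'.symm h3
        · exact absurd h' h4
      · exact h
    · rcases h' with h' | h'
      · subst h'
        rcases h with h | h
        · exact absurd h.symm h3
        · exact absurd h h4
      · exact h'

/-- Delete all arcs from `X` to `Z`. -/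
def del (D : OGraph V) (X Z : Finset V) : OGraph V where
  arc a b := D.arc a b ∧ ¬ (a ∈ X ∧ b ∈ Z)
  loopless v h := D.loopless v h.1
  asymm _ _ h h' := D.asymm _ _ h.1 h'.1

/-- Every vertex violates the inequality. -/
def CE (D : OGraph V) : Prop := ∀ v, (N2 D v).card < (N1 D v).card

/-- The number of arcs. -/
noncomputable def arcs (D : OGraph V) : ℕ := ∑ v, (N1 D v).card

theorem ce_iff [DecidableEq V] {D : OGraph V} :
    CE D ↔ ∀ v, c D (cn D {v}) < c D {v} := by
  unfold CE
  refine forall_congr' fun v => ?_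
  rw [← N1_card, ← N2_card]
  exact Nat.cast_lt.symm

/-- (G): in a counterexample with the fewest arcs `|N₂(X)| < |N₁(X)|` for every set `X`. -/
theorem G [DecidableEq V] {D : OGraph V} (hce : CE D)
    (hmin : ∀ D' : OGraph V, CE D' → arcs D ≤ arcs D') (X : Finset V)
    (hX : (cn D X \ X).Nonempty) : c D (cn D X) < c D X := by
  classical
  set L := cn D X \ X with hL
  by_contra hcon
  push Not at hcon
  set d : Finset V → ℤ := fun T => ((cn D T \ X).card : ℤ) - 2 * T.card with hd
  have hd0 : d ∅ = 0 := by
    have : cn D (∅ : Finset V) = ∅ := by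
      rw [Finset.eq_empty_iff_forall_notMem]
      intro z hz
      rw [mem_cn] at hz
      simp at hz
    simp [hd, this]
  have hXL : cn D X = X ∪ L := by
    rw [hL, Finset.union_sdiff_of_subset (subset_cn X)]
  have hdisj : Disjoint X L := by rw [hL]; exact Finset.disjoint_sdiff
  have hdL : 0 ≤ d L := by
    have e1 : cn D L \ X = cn D (cn D X) \ X := by
      ext z
      simp only [mem_sdiff]
      constructor
      · rintro ⟨h1, h2⟩
        exact ⟨cn_mono Finset.sdiff_subset h1, h2⟩
      · rintro ⟨h1, h2⟩
        refine ⟨?_, h2⟩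
        rw [hXL, cn_union, mem_union] at h1
        rcases h1 with h1 | h1
        · rw [hXL, mem_union] at h1
          exact subset_cn L (h1.resolve_left h2)
        · exact h1
    have e2 : ((cn D (cn D X) \ X).card : ℤ) = (cn D (cn D X)).card - X.card := by
      have := Finset.card_sdiff_add_card_eq_card
        ((subset_cn (D := D) X).trans (subset_cn (D := D) (cn D X)))
      omega
    have e3 : ((cn D X).card : ℤ) = X.card + L.card := by
      rw [hXL, Finset.card_union_of_disjoint hdisj]
      push_cast
      ring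
    simp only [hd]
    rw [e1, e2]
    unfold c at hcon
    omega
  -- a minimiser different from L
  obtain ⟨T, hTL, hTne, hTmin⟩ : ∃ T, T ⊆ L ∧ T ≠ L ∧ ∀ S ⊆ L, d T ≤ d S := by
    obtain ⟨T0, hT0, hT0min⟩ :=
      Finset.exists_min_image L.powerset d ⟨∅, Finset.empty_mem_powerset _⟩
    have hmin' : ∀ S ⊆ L, d T0 ≤ d S := fun S hS => hT0min S (Finset.mem_powerset.2 hS)
    by_cases he : T0 = L
    · refine ⟨∅, Finset.empty_subset _, fun h => ?_, fun S hS => ?_⟩
      · rw [← h] at hX
        exact Finset.not_nonempty_empty hX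
      · have := hmin' S hS
        rw [he] at this
        rw [hd0]
        linarith
    · exact ⟨T0, Finset.mem_powerset.1 hT0, he, hmin'⟩
  set Z := L \ T with hZ
  set D' := del D X Z with hD'
  have hLe : ∀ {s z}, Le D' s z → Le D s z := fun {s z} h => h.imp id fun h => h.1
  have hcn : ∀ S, cn D' S ⊆ cn D S := fun S z hz => by
    obtain ⟨s, hs, h1⟩ := mem_cn.1 hz
    exact mem_cn.2 ⟨s, hs, hLe h1⟩
  have hce' : CE D' := by
    rw [ce_iff] at hce ⊢
    intro y
    have hy := hce y
    have hcc : cn D' (cn D' {y}) ⊆ cn D (cn D {y}) := (hcn _).trans (cn_mono (hcn _))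
    by_cases hyX : y ∈ X
    · set Dy := cn D {y} ∩ Z with hDy
      set Ey := cn D Dy \ (X ∪ cn D T) with hEy
      have hDyL : Dy ⊆ L := Finset.inter_subset_right.trans Finset.sdiff_subset
      have hTD : Disjoint T Dy := by
        rw [Finset.disjoint_left]
        intro z hz hz'
        exact (Finset.mem_sdiff.1 (Finset.mem_inter.1 hz').2).2 hz
      have h1 := hTmin (T ∪ Dy) (Finset.union_subset hTL hDyL)
      have e1 : cn D (T ∪ Dy) \ X = (cn D T \ X) ∪ Ey := by
        rw [cn_union, hEy]
        ext z
        simp only [mem_sdiff, mem_union]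
        tauto
      have e2 : Disjoint (cn D T \ X) Ey := by
        rw [Finset.disjoint_left]
        intro z hz hz'
        exact (Finset.mem_sdiff.1 hz').2 (Finset.mem_union_right _ (Finset.mem_sdiff.1 hz).1)
      simp only [hd] at h1
      rw [e1, Finset.card_union_of_disjoint e2, Finset.card_union_of_disjoint hTD] at h1
      push_cast at h1
      -- sizes
      have f1 : cn D' {y} = cn D {y} \ Dy := by
        ext z
        simp only [mem_cn, mem_singleton, mem_sdiff, exists_eq_left, hDy, mem_inter, Le]
        constructor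
        · rintro (h | h)
          · subst h
            refine ⟨Or.inl rfl, fun h3 => ?_⟩
            have := (Finset.mem_sdiff.1 h3.2).1
            exact Finset.disjoint_left.1 hdisj hyX this
          · exact ⟨Or.inr h.1, fun h3 => h.2 ⟨hyX, h3.2⟩⟩
        · rintro ⟨h | h, h2⟩
          · exact Or.inl h
          · exact Or.inr ⟨h, fun h3 => h2 ⟨Or.inr h, h3.2⟩⟩
      have f2 : Disjoint (cn D' (cn D' {y})) Ey := by
        rw [Finset.disjoint_left]
        intro z hz hz'
        have hz2 := (Finset.mem_sdiff.1 hz').2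
        have hzX : z ∉ X := fun h => hz2 (Finset.mem_union_left _ h)
        have hzT : z ∉ cn D T := fun h => hz2 (Finset.mem_union_right _ h)
        obtain ⟨u, hu, huz⟩ := mem_cn.1 hz
        -- u ∈ X ∪ T
        have step : ∀ p q, p ∈ X → Le D' p q → q ∈ X ∨ q ∈ T := by
          intro p q hp hpq
          by_cases hq : q ∈ X
          · exact Or.inl hq
          · right
            rcases hpq with h | h
            · subst h
              exact absurd hp hq
            · by_contra hqT
              refine h.2 ⟨hp, Finset.mem_sdiff.2 ⟨?_, hqT⟩⟩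
              rw [hL]
              exact Finset.mem_sdiff.2 ⟨mem_cn.2 ⟨p, hp, Or.inr h.1⟩, hq⟩
        obtain ⟨y', hy', hyu⟩ := mem_cn.1 hu
        rw [Finset.mem_singleton] at hy'
        subst hy'
        rcases step _ _ hyX hyu with huX | huT
        · rcases step _ _ huX huz with h | h
          · exact hzX h
          · exact hzT (subset_cn T h)
        · exact hzT (mem_cn.2 ⟨u, huT, hLe huz⟩)
      have f3 : Ey ⊆ cn D (cn D {y}) := by
        intro z hz
        exact cn_mono Finset.inter_subset_left (Finset.mem_sdiff.1 hz).1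
      have g1 : ((cn D' {y}).card : ℤ) = (cn D {y}).card - Dy.card := by
        have hDs : Dy ⊆ cn D {y} := Finset.inter_subset_left
        have := Finset.card_sdiff_add_card_eq_card hDs
        rw [f1]
        omega
      have g2 : ((cn D' (cn D' {y})).card : ℤ) + Ey.card ≤ (cn D (cn D {y})).card := by
        have := Finset.card_le_card (Finset.union_subset hcc f3)
        rw [Finset.card_union_of_disjoint f2] at this
        exact_mod_cast this
      unfold c at hy ⊢
      simp only [Finset.card_singleton] at hy ⊢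
      push_cast at hy ⊢
      linarith
    · have f1 : cn D' {y} = cn D {y} := by
        ext z
        simp only [mem_cn, mem_singleton, exists_eq_left, Le]
        constructor
        · exact fun h => h.imp id fun h => h.1
        · exact fun h => h.imp id fun h => ⟨h, fun h3 => hyX h3.1⟩
      have g2 : ((cn D' (cn D' {y})).card : ℤ) ≤ (cn D (cn D {y})).card :=
        by exact_mod_cast Finset.card_le_card hcc
      unfold c at hy ⊢
      rw [f1] at g2 ⊢
      linarith
  -- fewer arcs
  have hlt : arcs D' < arcs D := by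
    obtain ⟨z, hz⟩ : Z.Nonempty := by
      rw [Finset.nonempty_iff_ne_empty]
      intro hZe
      rw [hZ, Finset.sdiff_eq_empty_iff_subset] at hZe
      exact hTne (Finset.Subset.antisymm hTL hZe)
    have hzL : z ∈ L := (Finset.mem_sdiff.1 hz).1
    rw [hL] at hzL
    obtain ⟨h1, h2⟩ := Finset.mem_sdiff.1 hzL
    obtain ⟨y, hy, hyz⟩ := mem_cn.1 h1
    have hyz' : D.arc y z := by
      rcases hyz with h | h
      · subst h
        exact absurd hy h2
      · exact h
    have hsub : ∀ v, N1 D' v ⊆ N1 D v := fun v u hu => mem_N1.2 (mem_N1.1 hu).1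
    unfold arcs
    refine Finset.sum_lt_sum (fun v _ => Finset.card_le_card (hsub v)) ⟨y, Finset.mem_univ _, ?_⟩
    refine Finset.card_lt_card (Finset.ssubset_iff_subset_ne.2 ⟨hsub y, fun he => ?_⟩)
    have : z ∈ N1 D' y := by
      rw [he]
      exact mem_N1.2 hyz'
    exact (mem_N1.1 this).2 ⟨hy, hz⟩
  exact absurd (hmin D' hce') (by omega)

end Vale.Agent.P038.H294
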