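import Vale.Agent.P038.H294.Base

/-!
# The comparison of the two minimum cuts
-/

namespace Vale.Agent.P038.H294

open Finset

variable {V : Type*} [Fintype V]

open Classical in
/-- The left interior of a family. -/
noncomputable def Lo (D : OGraph V) (P : V → Finset V) (a : V) : Finset V :=
  Finset.univ.filter fun x => ∀ s, Le D s a → x ∈ P s

theorem mem_Lo {D : OGraph V} {P : V → Finset V} {a x : V} :
    x ∈ Lo D P a ↔ ∀ s, Le D s a → x ∈ P s := by
  classical
  simp [Lo]

/-- Feasible pairs for the second problem. -/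
structure Feas (D : OGraph V) (P Q : V → Finset V) : Prop where
  left : ∀ a x, Le D a x → x ∈ P a
  right : ∀ a x, Le D a x → x ∈ Q a
  orth : ∀ a b, a ≠ b → b ∈ P a → a ∉ Q b

theorem Feas.symm {D : OGraph V} {P Q : V → Finset V} (h : Feas D P Q) : Feas D Q P :=
  ⟨h.right, h.left, fun a b hab hb ha => h.orth b a hab.symm ha hb⟩

/-- The pair of left interiors is feasible for the first problem. -/
theorem Feas.lo {D : OGraph V} {P Q : V → Finset V} (h : Feas D P Q) {a b : V} (hab : a ≠ b)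
    (hb : b ∈ cn D (Lo D P a)) : a ∉ cn D (Lo D Q b) := by
  intro ha
  obtain ⟨x, hx, hxb⟩ := mem_cn.1 hb
  obtain ⟨y, hy, hya⟩ := mem_cn.1 ha
  rw [mem_Lo] at hx hy
  have h1 : x ∈ P y := hx y hya
  have h2 : y ∈ Q x := hy x hxb
  have hxy : y = x := by
    by_contra hne
    exact h.orth y x hne h1 h2
  subst hxy
  -- x ∈ P a and a ∈ Q x
  have h3 : a = y := by
    by_contra hne
    exact h.orth a y hne (hx a (Or.inl rfl)) (h.right y a hya)
  have h4 : y = b := by
    by_contra hne
    exact h.orth y b hne (h.left y b hxb) (hy b (Or.inl rfl))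
  exact hab (h3.trans h4)

theorem Feas.self_mem_lo {D : OGraph V} {P Q : V → Finset V} (h : Feas D P Q) (a : V) :
    a ∈ Lo D P a := mem_Lo.2 fun s hs => h.left s a hs

/-- The cost of a pair. -/
noncomputable def cost (D : OGraph V) (P Q : V → Finset V) : ℤ := ∑ a, (c D (P a) + c D (Q a))

/-- `(Z, Q)` is decided: for `a ≠ b` exactly one of `b ∈ Z a`, `a ∈ Q b`. -/
def Dec (Z Q : V → Finset V) : Prop := ∀ a b, a ≠ b → (b ∈ Z a ↔ a ∉ Q b)

theorem Dec.symm {Z Q : V → Finset V} (h : Dec Z Q) : Dec Q Z := fun a b hab => by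
  have := h b a hab.symm
  tauto

theorem dec_cost [DecidableEq V] {D : OGraph V} {Z Q : V → Finset V} (h : Feas D Z Q)
    (hd : Dec Z Q) :
    ∑ b, c D (Q b) = ∑ a, ((Z a).card : ℤ) - ∑ a, ((Lo D Z a).card : ℤ) := by
  classical
  have e1 : ∀ b, c D (Q b) = ∑ a, if a ∈ cn D (Q b) \ Q b then (1 : ℤ) else 0 := by
    intro b
    rw [c_eq, Finset.sum_ite_mem, Finset.univ_inter]
    simp
  have e2 : ∀ a, ((Z a).card : ℤ) - ((Lo D Z a).card : ℤ) =
      ∑ b, if b ∈ Z a \ Lo D Z a then (1 : ℤ) else 0 := by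
    intro a
    have hsub : Lo D Z a ⊆ Z a := fun x hx => mem_Lo.1 hx a (Or.inl rfl)
    have := Finset.card_sdiff_add_card_eq_card hsub
    rw [Finset.sum_ite_mem, Finset.univ_inter]
    simp only [Finset.sum_const, nsmul_eq_mul, mul_one]
    omega
  rw [← Finset.sum_sub_distrib]
  simp_rw [e1, e2]
  rw [Finset.sum_comm]
  refine Finset.sum_congr rfl fun a _ => Finset.sum_congr rfl fun b _ => ?_
  have : (a ∈ cn D (Q b) \ Q b) ↔ (b ∈ Z a \ Lo D Z a) := by
    simp only [mem_sdiff, mem_cn, mem_Lo]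
    by_cases hab : a = b
    · subst hab
      constructor
      · rintro ⟨_, h2⟩
        exact absurd (h.right a a (Or.inl rfl)) h2
      · rintro ⟨_, h2⟩
        exact absurd (fun s hs => h.left s a hs) h2
    · constructor
      · rintro ⟨⟨s, hs, hsa⟩, h2⟩
        refine ⟨(hd a b hab).2 h2, fun h3 => ?_⟩
        have hsb : s ≠ b := by
          rintro rfl
          exact h2 (h.right s a hsa)
        exact (hd s b hsb).1 (h3 s hsa) hs
      · rintro ⟨h1, h2⟩
        refine ⟨?_, (hd a b hab).1 h1⟩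
        push Not at h2
        obtain ⟨s, hsa, hs⟩ := h2
        have hsb : s ≠ b := by
          rintro rfl
          exact hs (h.left s s (Or.inl rfl))
        refine ⟨s, ?_, hsa⟩
        by_contra h4
        exact hs ((hd s b hsb).2 h4)
  simp only [this]

/-- Counting: an orthogonal pair is not larger than a decided one. -/
theorem card_le_dec [DecidableEq V] {Z Q R S : V → Finset V} (hd : Dec Z Q)
    (hZ : ∀ a, a ∈ Z a) (hQ : ∀ a, a ∈ Q a)
    (ho : ∀ a b, a ≠ b → b ∈ R a → a ∉ S b) :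
    ∑ a, ((R a).card : ℤ) + ∑ b, ((S b).card : ℤ) ≤
      ∑ a, ((Z a).card : ℤ) + ∑ b, ((Q b).card : ℤ) := by
  classical
  have e : ∀ R : V → Finset V, ∑ a, ((R a).card : ℤ) =
      ∑ a, ∑ b, if b ∈ R a then (1 : ℤ) else 0 := by
    intro R
    refine Finset.sum_congr rfl fun a _ => ?_
    rw [Finset.sum_ite_mem, Finset.univ_inter]
    simp
  have e' : ∀ R : V → Finset V, ∑ a, ((R a).card : ℤ) =
      ∑ a, ∑ b, if a ∈ R b then (1 : ℤ) else 0 := by
    intro R
    rw [e, Finset.sum_comm]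
  rw [e R, e' S, e Z, e' Q, ← Finset.sum_add_distrib, ← Finset.sum_add_distrib]
  refine Finset.sum_le_sum fun a _ => ?_
  rw [← Finset.sum_add_distrib, ← Finset.sum_add_distrib]
  refine Finset.sum_le_sum fun b _ => ?_
  by_cases hab : a = b
  · subst hab
    rw [if_pos (hZ a), if_pos (hQ a)]
    split_ifs <;> norm_num
  · have h1 := ho a b hab
    have h2 := hd a b hab
    by_cases hR : b ∈ R a
    · have hS := h1 hR
      rw [if_pos hR, if_neg hS]
      by_cases hz : b ∈ Z a
      · rw [if_pos hz]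
        split_ifs <;> norm_num
      · have hq : a ∈ Q b := by
          by_contra hq
          exact hz (h2.2 hq)
        rw [if_neg hz, if_pos hq]
        norm_num
    · rw [if_neg hR]
      by_cases hz : b ∈ Z a
      · rw [if_pos hz]
        split_ifs <;> norm_num
      · have hq : a ∈ Q b := by
          by_contra hq
          exact hz (h2.2 hq)
        rw [if_neg hz, if_pos hq]
        split_ifs <;> norm_num

/-- The decided case. -/
theorem decided [DecidableEq V] {D : OGraph V} {Z Q : V → Finset V} (h : Feas D Z Q)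
    (hd : Dec Z Q) : cost D (Lo D Z) (Lo D Q) ≤ cost D Z Q := by
  have h1 := dec_cost h hd
  have h2 := dec_cost h.symm hd.symm
  have h3 := card_le_dec (R := fun a => cn D (Lo D Z a)) (S := fun b => cn D (Lo D Q b)) hd
    (fun a => h.left a a (Or.inl rfl)) (fun a => h.right a a (Or.inl rfl))
    (fun a b hab hb => h.lo hab hb)
  unfold cost
  simp only [Finset.sum_add_distrib]
  rw [h1, h2]
  unfold c
  simp only [Finset.sum_sub_distrib]
  linarith

/-! ### Minima of the cost over intervals -/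

/-- The minimum of `c` over `lo ⊆ R ⊆ lo ∪ hi`. -/
noncomputable def mn [DecidableEq V] (D : OGraph V) (lo hi : Finset V) : ℤ :=
  (Finset.Icc lo (lo ∪ hi)).inf' ⟨lo, Finset.mem_Icc.2 ⟨le_rfl, Finset.subset_union_left⟩⟩ (c D)

theorem mn_le [DecidableEq V] {D : OGraph V} {lo hi R : Finset V} (h1 : lo ⊆ R) (h2 : R ⊆ hi) :
    mn D lo hi ≤ c D R :=
  Finset.inf'_le _ (Finset.mem_Icc.2 ⟨h1, h2.trans Finset.subset_union_right⟩)

theorem exists_mn [DecidableEq V] (D : OGraph V) {lo hi : Finset V} (h : lo ⊆ hi) :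
    ∃ R, lo ⊆ R ∧ R ⊆ hi ∧ c D R = mn D lo hi := by
  obtain ⟨R, hR, hR'⟩ := Finset.exists_mem_eq_inf' (s := Finset.Icc lo (lo ∪ hi))
    ⟨lo, Finset.mem_Icc.2 ⟨le_rfl, Finset.subset_union_left⟩⟩ (c D)
  rw [Finset.mem_Icc] at hR
  refine ⟨R, hR.1, ?_, hR'.symm⟩
  have : lo ∪ hi = hi := Finset.union_eq_right.2 h
  rw [← this]
  exact hR.2

/-- The marginal inequality (5a). -/
theorem marginal [DecidableEq V] {D : OGraph V} {P P' Z Z' S : Finset V} {b : V}
    (hPZ : P ⊆ Z) (hP' : P' ⊆ Z') (hPP : P' ⊆ P) (hZZ : Z' ⊆ Z) (hb : b ∈ Z') :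
    mn D (P ∪ (insert b S ∩ Z)) Z + mn D (P' ∪ (S ∩ Z')) Z' ≤
      mn D (P ∪ (S ∩ Z)) Z + mn D (P' ∪ (insert b S ∩ Z')) Z' := by
  obtain ⟨R, hR1, hR2, hR⟩ := exists_mn D (Finset.union_subset hPZ Finset.inter_subset_right :
    P ∪ (S ∩ Z) ⊆ Z)
  obtain ⟨R', hR1', hR2', hR'⟩ := exists_mn D
    (Finset.union_subset hP' Finset.inter_subset_right : P' ∪ (insert b S ∩ Z') ⊆ Z')
  have h1 : mn D (P ∪ (insert b S ∩ Z)) Z ≤ c D (R ∪ R') := by
    refine mn_le ?_ (Finset.union_subset hR2 (hR2'.trans hZZ))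
    intro x hx
    rw [Finset.mem_union, Finset.mem_inter, Finset.mem_insert] at hx
    rw [Finset.mem_union]
    rcases hx with hx | ⟨hx | hx, hxZ⟩
    · exact Or.inl (hR1 (Finset.mem_union_left _ hx))
    · right
      apply hR1'
      rw [Finset.mem_union, Finset.mem_inter, Finset.mem_insert]
      exact Or.inr ⟨Or.inl hx, by rw [hx]; exact hb⟩
    · exact Or.inl (hR1 (Finset.mem_union_right _ (Finset.mem_inter.2 ⟨hx, hxZ⟩)))
  have h2 : mn D (P' ∪ (S ∩ Z')) Z' ≤ c D (R ∩ R') := by
    refine mn_le ?_ (Finset.inter_subset_right.trans hR2')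
    intro x hx
    rw [Finset.mem_union, Finset.mem_inter] at hx
    rw [Finset.mem_inter]
    rcases hx with hx | ⟨hx, hxZ⟩
    · exact ⟨hR1 (Finset.mem_union_left _ (hPP hx)), hR1' (Finset.mem_union_left _ hx)⟩
    · refine ⟨hR1 (Finset.mem_union_right _ (Finset.mem_inter.2 ⟨hx, hZZ hxZ⟩)),
        hR1' (Finset.mem_union_right _ (Finset.mem_inter.2 ⟨Finset.mem_insert_of_mem hx, hxZ⟩))⟩
  have h3 := c_submod D R R'
  linarith

/-- Layer cake. -/
theorem layer {f g : V → ℕ}
    (h : ∀ x, (Finset.univ.filter fun a => x < f a).card ≤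
      (Finset.univ.filter fun a => x < g a).card) : ∑ a, f a ≤ ∑ a, g a := by
  classical
  obtain ⟨M, hM⟩ : ∃ M, ∀ a, f a ≤ M ∧ g a ≤ M :=
    ⟨∑ a, f a + ∑ a, g a, fun a =>
      ⟨(Finset.single_le_sum (f := f) (fun _ _ => Nat.zero_le _) (Finset.mem_univ a)).trans
        (Nat.le_add_right _ _),
       (Finset.single_le_sum (f := g) (fun _ _ => Nat.zero_le _) (Finset.mem_univ a)).trans
        (Nat.le_add_left _ _)⟩⟩
  have key : ∀ f : V → ℕ, (∀ a, f a ≤ M) →
      ∑ a, f a = ∑ x ∈ Finset.range M, (Finset.univ.filter fun a => x < f a).card := by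
    intro f hf
    have e1 : ∀ a, f a = ∑ x ∈ Finset.range M, if x < f a then 1 else 0 := by
      intro a
      rw [← Finset.sum_filter]
      simp only [Finset.sum_const, smul_eq_mul, mul_one]
      have : (Finset.range M).filter (fun x => x < f a) = Finset.range (f a) := by
        ext x
        simp only [Finset.mem_filter, Finset.mem_range]
        have := hf a
        omega
      rw [this, Finset.card_range]
    calc ∑ a, f a = ∑ a, ∑ x ∈ Finset.range M, if x < f a then 1 else 0 :=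
          Finset.sum_congr rfl fun a _ => e1 a
      _ = ∑ x ∈ Finset.range M, ∑ a, if x < f a then 1 else 0 := Finset.sum_comm
      _ = _ := Finset.sum_congr rfl fun x _ => by rw [Finset.card_filter]
  rw [key f fun a => (hM a).1, key g fun a => (hM a).2]
  exact Finset.sum_le_sum fun x _ => h x

end Vale.Agent.P038.H294
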