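import Vale.Agent.P038.H294.Cut

/-!
# Seymour's second neighbourhood conjecture: the proof
-/

namespace Vale.Agent.P038.H294

open Finset

variable {V : Type*} [Fintype V]

/-- An optimal pair. -/
def IsOpt (D : OGraph V) (P Q : V → Finset V) : Prop :=
  Feas D P Q ∧ ∀ P' Q', Feas D P' Q' → cost D P Q ≤ cost D P' Q'

theorem exists_opt [DecidableEq V] (D : OGraph V) : ∃ P Q, IsOpt D P Q := by
  classical
  set F : Finset ((V → Finset V) × (V → Finset V)) :=
    Finset.univ.filter fun p => Feas D p.1 p.2 with hF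
  have hne : F.Nonempty := by
    refine ⟨(fun a => cn D {a}, fun a => cn D {a}), ?_⟩
    rw [hF, Finset.mem_filter]
    refine ⟨Finset.mem_univ _, fun a x h => ?_, fun a x h => ?_, fun a b hab hb ha => ?_⟩
    · exact mem_cn.2 ⟨a, Finset.mem_singleton_self a, h⟩
    · exact mem_cn.2 ⟨a, Finset.mem_singleton_self a, h⟩
    · obtain ⟨s, hs, h1⟩ := mem_cn.1 hb
      obtain ⟨t, ht, h2⟩ := mem_cn.1 ha
      rw [Finset.mem_singleton] at hs ht
      subst hs ht
      rcases h1 with h1 | h1
      · exact hab h1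
      · rcases h2 with h2 | h2
        · exact hab h2.symm
        · exact D.asymm _ _ h1 h2
  obtain ⟨p, hp, hmin⟩ := Finset.exists_min_image F (fun p => cost D p.1 p.2) hne
  refine ⟨p.1, p.2, (Finset.mem_filter.1 hp).2, fun P' Q' h => ?_⟩
  exact hmin (P', Q') (Finset.mem_filter.2 ⟨Finset.mem_univ _, h⟩)

theorem IsOpt.symm {D : OGraph V} {P Q : V → Finset V} (h : IsOpt D P Q) : IsOpt D Q P := by
  have e : ∀ P Q : V → Finset V, cost D P Q = cost D Q P := fun P Q => by
    unfold cost
    exact Finset.sum_congr rfl fun a _ => add_comm _ _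
  refine ⟨h.1.symm, fun P' Q' h' => ?_⟩
  rw [e Q P, e P' Q']
  exact h.2 _ _ h'.symm

open Classical in
/-- The largest row compatible with `Q`. -/
noncomputable def ZZ (Q : V → Finset V) (a : V) : Finset V :=
  Finset.univ.filter fun b => b = a ∨ a ∉ Q b

theorem mem_ZZ {Q : V → Finset V} {a b : V} : b ∈ ZZ Q a ↔ b = a ∨ a ∉ Q b := by
  classical
  simp [ZZ]

theorem Feas.sub_ZZ {D : OGraph V} {P Q : V → Finset V} (h : Feas D P Q) (a : V) :
    P a ⊆ ZZ Q a := fun b hb => by
  rw [mem_ZZ]
  by_cases hab : b = a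
  · exact Or.inl hab
  · exact Or.inr (h.orth a b (Ne.symm hab) hb)

theorem dec_ZZ (Q : V → Finset V) : Dec (ZZ Q) Q := fun a b hab => by
  rw [mem_ZZ]
  constructor
  · rintro (h | h)
    · exact absurd h.symm hab
    · exact h
  · exact Or.inr

theorem Feas.feas_ZZ {D : OGraph V} {P Q : V → Finset V} (h : Feas D P Q) :
    Feas D (ZZ Q) Q :=
  ⟨fun a x hx => h.sub_ZZ a (h.left a x hx), h.right, fun a b hab hb => (dec_ZZ Q a b hab).1 hb⟩

/-- (KU) -/
theorem IsOpt.row [DecidableEq V] {D : OGraph V} {P Q : V → Finset V} (h : IsOpt D P Q) (a : V)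
    {R : Finset V} (h1 : P a ⊆ R) (h2 : R ⊆ ZZ Q a) : c D (P a) ≤ c D R := by
  have hf : Feas D (Function.update P a R) Q := by
    refine ⟨fun b x hx => ?_, h.1.right, fun b x hbx hx => ?_⟩
    · by_cases hb : b = a
      · subst hb
        rw [Function.update_self]
        exact h1 (h.1.left b x hx)
      · rw [Function.update_of_ne hb]
        exact h.1.left b x hx
    · by_cases hb : b = a
      · subst hb
        rw [Function.update_self] at hx
        exact (dec_ZZ Q b x hbx).1 (h2 hx)
      · rw [Function.update_of_ne hb] at hx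
        exact h.1.orth b x hbx hx
  have h3 := h.2 _ _ hf
  unfold cost at h3
  rw [Finset.sum_add_distrib, Finset.sum_add_distrib] at h3
  have h4 : ∑ x, c D (P x) ≤ ∑ x, c D (Function.update P a R x) := by linarith
  rw [← Finset.add_sum_erase _ _ (Finset.mem_univ a),
    ← Finset.add_sum_erase _ (fun x => c D (Function.update P a R x)) (Finset.mem_univ a)] at h4
  have h5 : ∑ x ∈ Finset.univ.erase a, c D (Function.update P a R x) =
      ∑ x ∈ Finset.univ.erase a, c D (P x) := by
    refine Finset.sum_congr rfl fun x hx => ?_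
    rw [Function.update_of_ne (Finset.ne_of_mem_erase hx)]
  rw [h5] at h4
  simp only [Function.update_self] at h4
  linarith

/-- (4): the left interior is a minimiser in its interval. -/
theorem IsOpt.lo_le [DecidableEq V] {D : OGraph V} {P Q : V → Finset V} (h : IsOpt D P Q) (a : V)
    {R : Finset V} (h1 : Lo D P a ⊆ R) (h2 : R ⊆ Lo D (ZZ Q) a) : c D (Lo D P a) ≤ c D R := by
  classical
  have key : ∀ K : Finset V, (∀ s ∈ K, Le D s a) →
      c D (R.filter fun x => ∀ s ∈ K, x ∈ P s) ≤ c D R := by
    intro K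
    induction K using Finset.induction_on with
    | empty =>
      intro _
      simp
    | insert s K hs ih =>
      intro hK
      have ih' := ih fun t ht => hK t (Finset.mem_insert_of_mem ht)
      set R1 := R.filter fun x => ∀ s ∈ K, x ∈ P s with hR1
      have e : (R.filter fun x => ∀ t ∈ insert s K, x ∈ P t) = R1 ∩ P s := by
        ext x
        simp only [hR1, Finset.mem_filter, Finset.mem_inter, Finset.mem_insert]
        constructor
        · rintro ⟨hx, hx2⟩
          exact ⟨⟨hx, fun t ht => hx2 t (Or.inr ht)⟩, hx2 s (Or.inl rfl)⟩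
        · rintro ⟨⟨hx, hx2⟩, hx3⟩
          refine ⟨hx, fun t ht => ?_⟩
          rcases ht with rfl | ht
          · exact hx3
          · exact hx2 t ht
      rw [e]
      have h3 := c_submod D R1 (P s)
      have hsa : Le D s a := hK s (Finset.mem_insert_self s K)
      have h4 : c D (P s) ≤ c D (R1 ∪ P s) := by
        refine h.row s Finset.subset_union_right (Finset.union_subset ?_ (h.1.sub_ZZ s))
        intro x hx
        exact mem_Lo.1 (h2 (Finset.mem_filter.1 hx).1) s hsa
      linarith
  have hfin := key (Finset.univ.filter fun s => Le D s a) (fun s hs => (Finset.mem_filter.1 hs).2)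
  have e : (R.filter fun x => ∀ s ∈ Finset.univ.filter (fun s => Le D s a), x ∈ P s) =
      Lo D P a := by
    ext x
    simp only [Finset.mem_filter, Finset.mem_univ, true_and, mem_Lo]
    exact ⟨fun h => h.2, fun h => ⟨h1 (mem_Lo.2 h), h⟩⟩
  rwa [e] at hfin

/-- (5b) -/
theorem IsOpt.col [DecidableEq V] {D : OGraph V} {P Q : V → Finset V} (h : IsOpt D P Q) (b : V)
    {T : Finset V} (hT : ∀ a ∈ T, b ∈ ZZ Q a ∧ b ∉ P a) {S : Finset V}
    (hS : ∀ a', b ∈ Lo D (ZZ Q) a' → (∃ a ∈ T, Le D a a') → a' ∈ S) : T.card ≤ S.card := by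
  have hTQ : Disjoint (Q b) T := by
    rw [Finset.disjoint_left]
    intro a ha haT
    obtain ⟨h1, h2⟩ := hT a haT
    rw [mem_ZZ] at h1
    rcases h1 with h1 | h1
    · subst h1
      exact h2 (h.1.left b b (Or.inl rfl))
    · exact h1 ha
  have h1 : c D (Q b) ≤ c D (Q b ∪ T) := by
    refine h.symm.row b Finset.subset_union_left (Finset.union_subset (h.1.symm.sub_ZZ b) ?_)
    intro a ha
    rw [mem_ZZ]
    exact Or.inr (hT a ha).2
  have h2 : cn D (Q b ∪ T) \ cn D (Q b) ⊆ S := by
    intro a' ha'
    obtain ⟨h3, h4⟩ := Finset.mem_sdiff.1 ha'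
    rw [cn_union, Finset.mem_union] at h3
    have h3' := h3.resolve_left h4
    obtain ⟨a, haT, haa⟩ := mem_cn.1 h3'
    refine hS a' (mem_Lo.2 fun s hs => ?_) ⟨a, haT, haa⟩
    rw [mem_ZZ]
    right
    intro hsQ
    exact h4 (mem_cn.2 ⟨s, hsQ, hs⟩)
  have h5 := Finset.card_le_card h2
  have h6 := Finset.card_sdiff_add_card_eq_card (cn_mono (D := D)
    (Finset.subset_union_left : Q b ⊆ Q b ∪ T))
  unfold c at h1
  rw [Finset.card_union_of_disjoint hTQ] at h1
  push_cast at h1
  omega

/-- (HALF) -/
theorem IsOpt.half [DecidableEq V] {D : OGraph V} {P Q : V → Finset V} (h : IsOpt D P Q) :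
    ∑ a, (c D (ZZ Q a) - c D (P a)) ≤ ∑ a, (c D (Lo D (ZZ Q) a) - c D (Lo D P a)) := by
  classical
  set Z := ZZ Q with hZdef
  have hPZ : ∀ a, P a ⊆ Z a := h.1.sub_ZZ
  have hLsub : ∀ {a a'}, Le D a a' → Lo D Z a' ⊆ Z a := fun {a a'} haa x hx => mem_Lo.1 hx a haa
  have hLsubP : ∀ {a a'}, Le D a a' → Lo D P a' ⊆ P a := fun {a a'} haa x hx => mem_Lo.1 hx a haa
  have hLL : ∀ a, Lo D P a ⊆ Lo D Z a := fun a x hx => mem_Lo.2 fun s hs =>
    hPZ s (mem_Lo.1 hx s hs)
  have key : ∀ S : Finset V,
      ∑ a, (mn D (P a ∪ (S ∩ Z a)) (Z a) - c D (P a)) ≤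
        ∑ a, (mn D (Lo D P a ∪ (S ∩ Lo D Z a)) (Lo D Z a) - c D (Lo D P a)) := by
    intro S
    induction S using Finset.induction_on with
    | empty =>
      refine Finset.sum_le_sum fun a _ => ?_
      rw [Finset.empty_inter, Finset.empty_inter, Finset.union_empty, Finset.union_empty]
      have h1 : mn D (P a) (Z a) ≤ c D (P a) := mn_le (Finset.Subset.refl _) (hPZ a)
      have h2 : c D (Lo D P a) ≤ mn D (Lo D P a) (Lo D Z a) := by
        obtain ⟨R, hR1, hR2, hR⟩ := exists_mn D (hLL a)
        rw [← hR]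
        exact h.lo_le a hR1 hR2
      linarith
    | insert b S hbS ih =>
      -- marginals
      set ρ : V → ℤ := fun a => mn D (P a ∪ (insert b S ∩ Z a)) (Z a) -
        mn D (P a ∪ (S ∩ Z a)) (Z a) with hρ
      set ρ' : V → ℤ := fun a => mn D (Lo D P a ∪ (insert b S ∩ Lo D Z a)) (Lo D Z a) -
        mn D (Lo D P a ∪ (S ∩ Lo D Z a)) (Lo D Z a) with hρ'
      have hmono : ∀ {A B C H : Finset V}, A ⊆ H → B ⊆ C →
          0 ≤ mn D (A ∪ (C ∩ H)) H - mn D (A ∪ (B ∩ H)) H := by
        intro A B C H hAH hBC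
        obtain ⟨R, hR1, hR2, hR⟩ := exists_mn D
          (Finset.union_subset hAH Finset.inter_subset_right : A ∪ (C ∩ H) ⊆ H)
        have : mn D (A ∪ (B ∩ H)) H ≤ c D R :=
          mn_le ((Finset.union_subset_union_right
            (Finset.inter_subset_inter_right hBC)).trans hR1) hR2
        linarith
      have hρ0 : ∀ a, 0 ≤ ρ a := fun a => hmono (hPZ a) (Finset.subset_insert b S)
      have hρ0' : ∀ a, 0 ≤ ρ' a := fun a => hmono (hLL a) (Finset.subset_insert b S)
      have hvan : ∀ a, ρ a ≠ 0 → b ∈ Z a ∧ b ∉ P a := by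
        intro a ha
        constructor
        · by_contra hb
          apply ha
          have : insert b S ∩ Z a = S ∩ Z a := by
            ext x
            simp only [Finset.mem_inter, Finset.mem_insert]
            constructor
            · rintro ⟨hx | hx, hx2⟩
              · subst hx
                exact absurd hx2 hb
              · exact ⟨hx, hx2⟩
            · rintro ⟨hx, hx2⟩
              exact ⟨Or.inr hx, hx2⟩
          simp only [hρ]
          rw [this, sub_self]
        · intro hb
          apply ha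
          have : P a ∪ (insert b S ∩ Z a) = P a ∪ (S ∩ Z a) := by
            ext x
            simp only [Finset.mem_union, Finset.mem_inter, Finset.mem_insert]
            constructor
            · rintro (hx | ⟨hx | hx, hx2⟩)
              · exact Or.inl hx
              · subst hx
                exact Or.inl hb
              · exact Or.inr ⟨hx, hx2⟩
            · rintro (hx | ⟨hx, hx2⟩)
              · exact Or.inl hx
              · exact Or.inr ⟨Or.inr hx, hx2⟩
          simp only [hρ]
          rw [this, sub_self]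
      have hmarg : ∀ {a a'}, Le D a a' → b ∈ Lo D Z a' → ρ a ≤ ρ' a' := by
        intro a a' haa hb
        have := marginal (D := D) (S := S) (hPZ a) (hLL a') (hLsubP haa) (hLsub haa) hb
        simp only [hρ, hρ']
        linarith
      have hlay := layer (f := fun a => (ρ a).toNat) (g := fun a => (ρ' a).toNat) (by
        intro x
        refine h.col b ?_ ?_
        · intro a ha
          refine hvan a ?_
          have := (Finset.mem_filter.1 ha).2
          omega
        · rintro a' hb ⟨a, ha, haa⟩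
          have h1 := (Finset.mem_filter.1 ha).2
          have h2 := hmarg haa hb
          refine Finset.mem_filter.2 ⟨Finset.mem_univ _, ?_⟩
          omega)
      have hsum : ∑ a, ρ a ≤ ∑ a, ρ' a := by
        have e1 : ∑ a, ρ a = ((∑ a, (ρ a).toNat : ℕ) : ℤ) := by
          push_cast
          exact Finset.sum_congr rfl fun a _ => (Int.toNat_of_nonneg (hρ0 a)).symm
        have e2 : ∑ a, ρ' a = ((∑ a, (ρ' a).toNat : ℕ) : ℤ) := by
          push_cast
          exact Finset.sum_congr rfl fun a _ => (Int.toNat_of_nonneg (hρ0' a)).symm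
        rw [e1, e2]
        exact_mod_cast hlay
      have e1 : ∑ a, (mn D (P a ∪ (insert b S ∩ Z a)) (Z a) - c D (P a)) =
          ∑ a, ρ a + ∑ a, (mn D (P a ∪ (S ∩ Z a)) (Z a) - c D (P a)) := by
        rw [← Finset.sum_add_distrib]
        refine Finset.sum_congr rfl fun a _ => ?_
        simp only [hρ]
        ring
      have e2 : ∑ a, (mn D (Lo D P a ∪ (insert b S ∩ Lo D Z a)) (Lo D Z a) - c D (Lo D P a)) =
          ∑ a, ρ' a + ∑ a, (mn D (Lo D P a ∪ (S ∩ Lo D Z a)) (Lo D Z a) - c D (Lo D P a)) := by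
        rw [← Finset.sum_add_distrib]
        refine Finset.sum_congr rfl fun a _ => ?_
        simp only [hρ']
        ring
      rw [e1, e2]
      linarith
  have hfin := key Finset.univ
  have e1 : ∀ a, mn D (P a ∪ (Finset.univ ∩ Z a)) (Z a) = c D (Z a) := by
    intro a
    rw [Finset.univ_inter, Finset.union_eq_right.2 (hPZ a)]
    obtain ⟨R, hR1, hR2, hR⟩ := exists_mn D (Finset.Subset.refl (Z a))
    rw [← hR, Finset.Subset.antisymm hR2 hR1]
  have e2 : ∀ a, mn D (Lo D P a ∪ (Finset.univ ∩ Lo D Z a)) (Lo D Z a) = c D (Lo D Z a) := by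
    intro a
    rw [Finset.univ_inter, Finset.union_eq_right.2 (hLL a)]
    obtain ⟨R, hR1, hR2, hR⟩ := exists_mn D (Finset.Subset.refl (Lo D Z a))
    rw [← hR, Finset.Subset.antisymm hR2 hR1]
  simp only [e1, e2] at hfin
  exact hfin

/-- (6): the left interiors of an optimal pair are not more expensive. -/
theorem IsOpt.cost_lo [DecidableEq V] {D : OGraph V} {P Q : V → Finset V} (h : IsOpt D P Q) :
    cost D (Lo D P) (Lo D Q) ≤ cost D P Q := by
  have h1 := h.half
  have h2 := decided h.1.feas_ZZ (dec_ZZ Q)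
  unfold cost at h2 ⊢
  simp only [Finset.sum_add_distrib, Finset.sum_sub_distrib] at h1 h2 ⊢
  linarith

/-- No counterexample with the fewest arcs. -/
theorem no_min_ce [DecidableEq V] [Nonempty V] {D : OGraph V} (hce : CE D)
    (hmin : ∀ D' : OGraph V, CE D' → arcs D ≤ arcs D') : False := by
  classical
  obtain ⟨P, Q, h⟩ := exists_opt D
  have hle : ∀ X : Finset V, c D (cn D X) ≤ c D X := by
    intro X
    by_cases hX : (cn D X \ X).Nonempty
    · exact (G hce hmin X hX).le
    · rw [Finset.not_nonempty_iff_eq_empty, Finset.sdiff_eq_empty_iff_subset] at hX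
      have : cn D X = X := Finset.Subset.antisymm hX (subset_cn X)
      rw [this]
  -- a row which is not closed
  obtain ⟨a, ha⟩ : ∃ a, (cn D (Lo D P a) \ Lo D P a).Nonempty := by
    by_contra hcon
    push Not at hcon
    have hcl : ∀ a, cn D (Lo D P a) = Lo D P a := fun a => by
      have := hcon a
      rw [Finset.sdiff_eq_empty_iff_subset] at this
      exact Finset.Subset.antisymm this (subset_cn _)
    -- a smallest nonempty closed set
    obtain ⟨S, hS, hSmin⟩ := Finset.exists_min_image
      (Finset.univ.filter fun S : Finset V => S.Nonempty ∧ cn D S = S) Finset.card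
      ⟨Finset.univ, by
        refine Finset.mem_filter.2 ⟨Finset.mem_univ _, Finset.univ_nonempty, ?_⟩
        exact Finset.Subset.antisymm (Finset.subset_univ _) (subset_cn _)⟩
    obtain ⟨_, ⟨s, hs⟩, hScl⟩ := Finset.mem_filter.1 hS
    have h1 : 0 < (N1 D s).card := lt_of_le_of_lt (Nat.zero_le _) (hce s)
    obtain ⟨b, hb⟩ := Finset.card_pos.1 h1
    rw [mem_N1] at hb
    have hbS : b ∈ S := by
      rw [← hScl]
      exact mem_cn.2 ⟨s, hs, Or.inr hb⟩
    have hbL : b ∈ Lo D P b := h.1.self_mem_lo b
    have hint : cn D (S ∩ Lo D P b) = S ∩ Lo D P b := by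
      refine Finset.Subset.antisymm (Finset.subset_inter ?_ ?_) (subset_cn _)
      · have := cn_mono (D := D) (Finset.inter_subset_left : S ∩ Lo D P b ⊆ S)
        rwa [hScl] at this
      · have := cn_mono (D := D) (Finset.inter_subset_right : S ∩ Lo D P b ⊆ Lo D P b)
        rwa [hcl b] at this
    have h2 := hSmin (S ∩ Lo D P b) (Finset.mem_filter.2
      ⟨Finset.mem_univ _, ⟨b, Finset.mem_inter.2 ⟨hbS, hbL⟩⟩, hint⟩)
    have h3 : S ∩ Lo D P b = S := Finset.eq_of_subset_of_card_le Finset.inter_subset_left h2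
    have hsL : s ∈ Lo D P b := by
      have : s ∈ S ∩ Lo D P b := by rw [h3]; exact hs
      exact (Finset.mem_inter.1 this).2
    have h4 : s ∈ P b := mem_Lo.1 hsL b (Or.inl rfl)
    have h5 : b ∈ Q s := h.1.right s b (Or.inr hb)
    have h6 : b ≠ s := by
      rintro rfl
      exact D.loopless _ hb
    exact h.1.orth b s h6 h4 h5
  -- the closed neighbourhoods are feasible and cheaper
  have hf : Feas D (fun a => cn D (Lo D P a)) (fun a => cn D (Lo D Q a)) := by
    refine ⟨fun a x hx => ?_, fun a x hx => ?_, fun a b hab hb => h.1.lo hab hb⟩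
    · exact mem_cn.2 ⟨a, h.1.self_mem_lo a, hx⟩
    · exact mem_cn.2 ⟨a, h.1.symm.self_mem_lo a, hx⟩
  have h1 := h.2 _ _ hf
  have h2 := h.cost_lo
  have h3 : cost D (fun a => cn D (Lo D P a)) (fun a => cn D (Lo D Q a)) <
      cost D (Lo D P) (Lo D Q) := by
    unfold cost
    refine Finset.sum_lt_sum (fun b _ => add_le_add (hle _) (hle _)) ⟨a, Finset.mem_univ _, ?_⟩
    exact add_lt_add_of_lt_of_le (G hce hmin _ ha) (hle _)
  linarith

/-- Seymour's second neighbourhood conjecture. -/
theorem seymour [Nonempty V] (D : OGraph V) : ∃ v, (N1 D v).card ≤ (N2 D v).card := by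
  classical
  by_contra hcon
  push Not at hcon
  have hce : CE D := hcon
  have key : ∀ k : ℕ, ∀ D : OGraph V, CE D → arcs D ≤ k → False := by
    intro k
    induction k with
    | zero =>
      intro D hD hk
      exact no_min_ce hD fun D' _ => hk.trans (Nat.zero_le _)
    | succ k ih =>
      intro D hD hk
      refine no_min_ce hD fun D' hD' => ?_
      by_contra hlt
      push Not at hlt
      exact ih D' hD' (by omega)
  exact key _ D hce le_rfl

end Vale.Agent.P038.H294
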